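import Vale.Agent.P181.S6.SpecG
import Vale.Agent.P181.T4.Asm

/-!
# P181, S10: all b > a, every partition with first row at most (b - a) a ^ (1 - eps)
-/

set_option autoImplicit false

namespace Vale.Agent.P181.S10

open Finset Vale.Agent.P181 Vale.Agent.P181.H280 Vale.Agent.P181.H463 Vale.Agent.P181.H59
open Vale.Agent.P181.S6

/-- **[S10-DUAL]** the orbit inequality for long columns: the design is used for the complements
of the columns (the stars are circuits: the first rows of the special point are orthogonal to a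
generic vector supported on each star). -/
def MatDual : Prop :=
  ∀ (a b R N : ℕ) (len : Fin N → ℕ) (lam η : Fin a → ℕ), 0 < b →
    Design b R N (fun c => b - len c) →
    (∀ c, len c ≤ a ∧ len c + R ≤ b) → Antitone η →
    (∀ i : Fin a, (univ.filter fun c => (i : ℕ) < len c).card + η i = lam i) →
    ∑ i, lam i = a * b →
    gt a b η ≤ ((∑ i, η i) + b - 1).choose (b - 1) * (b.factorial * plethMult b a a lam)

/-- **The theorem for `a ≤ b ≤ 2 a`.** -/
def Main10 : Prop :=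
  ∀ ε : ℝ, 0 < ε → ∀ᶠ a : ℕ in Filter.atTop, ∀ b : ℕ, a ≤ b → b ≤ 2 * a →
    ∀ lam : Fin a → ℕ, Antitone lam → ∑ i, lam i = a * b →
    (∀ i, (lam i : ℝ) ≤ ((b : ℝ) - a) * (a : ℝ) ^ (1 - ε)) →
    plethMult a b a lam ≤ plethMult b a a lam

/-- **[S10-NUM]** choice of the marker columns and the numbers. -/
def Num10 : Prop := DesAll → MatStmt → MatDual → Main10

/-- **General form** (no condition on the first row): `l` columns-lengths with
`l (b - a) min(b, λ_l) ≥ b² a^ε` (index `l - 1`). -/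
def Main10g : Prop :=
  ∀ ε : ℝ, 0 < ε → ∀ᶠ a : ℕ in Filter.atTop, ∀ b : ℕ, a ≤ b → b ≤ a ^ 2 →
    ∀ lam : Fin a → ℕ, Antitone lam → ∑ i, lam i = a * b → ∀ i : Fin a,
    (b : ℝ) ^ 2 * (a : ℝ) ^ ε ≤ ((i : ℕ) + 1) * ((b : ℝ) - a) * min (b : ℝ) (lam i) →
    plethMult a b a lam ≤ plethMult b a a lam

/-- **[S10-NUMg]** -/
def Num10g : Prop := DesAll → MatStmt → MatDual → Main10g

/-- **The general theorem, all `b ≥ a`, all `n`**: enough boxes in the first `b` columns. -/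
def Main10gAll : Prop :=
  ∀ ε : ℝ, 0 < ε → ∃ a₀ : ℕ, ∀ a : ℕ, a₀ ≤ a → ∀ (b n : ℕ) (lam : Fin n → ℕ), a ≤ b →
    (b : ℝ) ^ 2 * (a : ℝ) ^ ε ≤ ((b : ℝ) - a) * ∑ i, ((min b (lam i) : ℕ) : ℝ) →
    plethMult a b n lam ≤ plethMult b a n lam

/-- **The theorem for all `b ≥ a`.** -/
def Main10All : Prop :=
  ∀ ε : ℝ, 0 < ε → ∃ a₀ : ℕ, ∀ a : ℕ, a₀ ≤ a → ∀ (b n : ℕ) (lam : Fin n → ℕ), a ≤ b →
    (∀ i, (lam i : ℝ) ≤ ((b : ℝ) - a) * (a : ℝ) ^ (1 - ε)) →
    plethMult a b n lam ≤ plethMult b a n lam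

/-- **[S10-ALL]** the glue (S6 for `2 a ≤ b ≤ a ^ 2`, `BigStmt` beyond, pad and zero). -/
def All10 : Prop := Main10 → Main6 → T4.BigStmt → Main10All

end Vale.Agent.P181.S10
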